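import Crest.Agent.R061.GeomFull

-- ▼ part N255/Ra/Basic
section

/-!
# Row 255 (helper38): right angled Coxeter groups of a simple graph

`W Γ` group, `gen Γ s` generators, `len` word length, `In w` right descents, `Init w` left descents.
-/

set_option autoImplicit false

noncomputable section

namespace Crest.Agent.N255.Ra

open Crest.Agent.R061

variable {S S' : Type} (Γ : SimpleGraph S) (Γ' : SimpleGraph S')

open Classical in
/-- the Coxeter matrix of a graph -/
def cm : CoxeterMatrix S where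
  M := Matrix.of fun s t => if s = t then 1 else if Γ.Adj s t then 2 else 0
  isSymm := by
    ext s t
    simp only [Matrix.transpose_apply, Matrix.of_apply, eq_comm (a := t), Γ.adj_comm t]
  diagonal s := by simp
  off_diagonal s t h := by
    simp only [Matrix.of_apply, if_neg h]
    split_ifs <;> norm_num

/-- the right angled Coxeter group -/
abbrev W : Type := (cm Γ).Group

/-- its Coxeter system -/
abbrev cs : CoxeterSystem (cm Γ) (W Γ) := (cm Γ).toCoxeterSystem

/-- the generators -/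
def gen (s : S) : W Γ := (cs Γ).simple s

variable {Γ Γ'}

/-- word length -/
def len (w : W Γ) : ℕ := (cs Γ).length w

/-- the last letters of `w` -/
def In (w : W Γ) : Set S := {s | len (w * gen Γ s) < len w}

/-- the first letters of `w` -/
def Init (w : W Γ) : Set S := {s | len (gen Γ s * w) < len w}

variable {s t : S} {w u : W Γ}

theorem cm_adj (h : Γ.Adj s t) : cm Γ s t = 2 := by simp [cm, h, h.ne]

theorem cm_nadj (h : s ≠ t) (h' : ¬Γ.Adj s t) : cm Γ s t = 0 := by simp [cm, h, h']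

@[simp] theorem gen_mul_self (s : S) : gen Γ s * gen Γ s = 1 := (cs Γ).simple_mul_simple_self s

@[simp] theorem gen_inv (s : S) : (gen Γ s)⁻¹ = gen Γ s := (cs Γ).inv_simple s

@[simp] theorem mul_gen_gen (w : W Γ) (s : S) : w * gen Γ s * gen Γ s = w := by
  rw [mul_assoc, gen_mul_self, mul_one]

@[simp] theorem gen_gen_mul (s : S) (w : W Γ) : gen Γ s * (gen Γ s * w) = w := by
  rw [← mul_assoc, gen_mul_self, one_mul]

theorem gen_comm (h : Γ.Adj s t) : Commute (gen Γ s) (gen Γ t) := by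
  have e := (cs Γ).simple_mul_simple_pow s t
  rw [cm_adj h, pow_two, mul_eq_one_iff_eq_inv, mul_inv_rev] at e
  exact e.trans (by rw [(cs Γ).inv_simple, (cs Γ).inv_simple]; rfl)

theorem gen_comm' (h : s ≠ t → Γ.Adj s t) : Commute (gen Γ s) (gen Γ t) := by
  by_cases e : s = t
  · rw [e]
  · exact gen_comm (h e)

theorem liftable {H : Type} [Monoid H] (f : S → H) (h1 : ∀ s, f s * f s = 1)
    (h2 : ∀ s t, Γ.Adj s t → Commute (f s) (f t)) : (cm Γ).IsLiftable f := fun s t => by
  by_cases e : s = t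
  · rw [e, (cm Γ).diagonal, pow_one, h1]
  by_cases a : Γ.Adj s t
  · rw [cm_adj a, (h2 s t a).mul_pow, pow_two, pow_two, h1, h1, one_mul]
  · rw [cm_nadj e a, pow_zero]

/-- the universal property -/
def lift {H : Type} [Monoid H] (f : S → H) (h1 : ∀ s, f s * f s = 1)
    (h2 : ∀ s t, Γ.Adj s t → Commute (f s) (f t)) : W Γ →* H :=
  (cs Γ).lift ⟨f, liftable f h1 h2⟩

@[simp] theorem lift_gen {H : Type} [Monoid H] (f : S → H) (h1 : ∀ s, f s * f s = 1)
    (h2 : ∀ s t, Γ.Adj s t → Commute (f s) (f t)) (s : S) : lift f h1 h2 (gen Γ s) = f s :=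
  (cs Γ).lift_apply_simple _ s

theorem hom_ext {H : Type} [MulOneClass H] {φ ψ : W Γ →* H} (h : ∀ s, φ (gen Γ s) = ψ (gen Γ s)) :
    φ = ψ := (cs Γ).ext_simple h

@[elab_as_elim] theorem ind_right {p : W Γ → Prop} (w : W Γ) (one : p 1)
    (mul : ∀ w s, p w → p (w * gen Γ s)) : p w := (cs Γ).simple_induction_right w one mul

@[elab_as_elim] theorem ind_left {p : W Γ → Prop} (w : W Γ) (one : p 1)
    (mul : ∀ w s, p w → p (gen Γ s * w)) : p w := (cs Γ).simple_induction_left w one mul


/-! ### length -/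

@[simp] theorem len_one : len (1 : W Γ) = 0 := (cs Γ).length_one

@[simp] theorem len_gen (s : S) : len (gen Γ s) = 1 := (cs Γ).length_simple s

theorem len_eq_zero : len w = 0 ↔ w = 1 := (cs Γ).length_eq_zero_iff

@[simp] theorem len_inv (w : W Γ) : len w⁻¹ = len w := (cs Γ).length_inv w

theorem len_mul_le (w u : W Γ) : len (w * u) ≤ len w + len u := (cs Γ).length_mul_le w u


theorem len_mem (h : s ∈ In w) : len (w * gen Γ s) + 1 = len w := (cs Γ).isRightDescent_iff.1 h

theorem len_nmem (h : s ∉ In w) : len (w * gen Γ s) = len w + 1 := (cs Γ).not_isRightDescent_iff.1 h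

theorem Init_eq (w : W Γ) : Init w = In w⁻¹ := by
  ext s
  simp only [Init, In, Set.mem_ofPred_eq]
  rw [← len_inv (gen Γ s * w), mul_inv_rev, gen_inv, len_inv w]

theorem In_eq (w : W Γ) : In w = Init w⁻¹ := by rw [Init_eq, inv_inv]

theorem len_mem' (h : s ∈ Init w) : len (gen Γ s * w) + 1 = len w := (cs Γ).isLeftDescent_iff.1 h

theorem len_nmem' (h : s ∉ Init w) : len (gen Γ s * w) = len w + 1 := (cs Γ).not_isLeftDescent_iff.1 h

@[simp] theorem In_one : In (1 : W Γ) = ∅ := by ext s; simp [In]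

theorem In_nonempty (h : w ≠ 1) : (In w).Nonempty := (cs Γ).exists_rightDescent_of_ne_one h

theorem In_eq_empty : In w = ∅ ↔ w = 1 :=
  ⟨fun h => by_contra fun e => (In_nonempty e).ne_empty h, fun h => h ▸ In_one⟩

/-- induction along reduced words -/
@[elab_as_elim] theorem ind_red {p : W Γ → Prop} (w : W Γ) (one : p 1)
    (mul : ∀ w s, s ∉ In w → p w → p (w * gen Γ s)) : p w := by
  induction h : len w generalizing w with
  | zero => rwa [len_eq_zero.1 h]
  | succ n ih =>
    obtain ⟨s, hs⟩ := In_nonempty (w := w) fun e => by simp [e] at h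
    have e := len_mem hs
    have := mul (w * gen Γ s) s (by simp only [In, Set.mem_ofPred_eq, mul_gen_gen]; omega)
      (ih _ (by omega))
    rwa [mul_gen_gen] at this

theorem mem_In_mul_self : s ∈ In (w * gen Γ s) ↔ s ∉ In w := by
  have := (cs Γ).isRightDescent_iff_not_isRightDescent_mul (w := w) (i := s)
  exact ⟨fun h h' => this.1 h' h, fun h => by_contra fun h' => h (this.2 h')⟩

/-! ### the descent sets are cliques -/

section geom

open GeomFull

theorem mem_In_iff : s ∈ In w ↔ Pos (-(rep (cs Γ) w (Finsupp.single s 1))) := (neg_rep_sr_iff _).symm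

theorem rep_gen (w : W Γ) (s t : S) : rep (cs Γ) (w * gen Γ s) (Finsupp.single t 1) =
    rep (cs Γ) w (Finsupp.single t 1) - (2 * gram (cm Γ) s t) • rep (cs Γ) w (Finsupp.single s 1) := by
  rw [rep_mul_apply, gen, rep_simple, sig_apply, map_sub, map_smul, bil_sr]

theorem mem_In_mul_adj (h : Γ.Adj s t) : t ∈ In (w * gen Γ s) ↔ t ∈ In w := by
  rw [mem_In_iff, mem_In_iff, rep_gen, gram, cm_adj h]
  simp

theorem clique_aux (n : ℕ) : ∀ (w : W Γ) (s t : S), len w = n → s ≠ t → ¬Γ.Adj s t → s ∈ In w →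
    (∀ b, (rep (cs Γ) w (Finsupp.single s 1) + rep (cs Γ) w (Finsupp.single t 1)) b ≤ 0) → False := by
  induction n with
  | zero => intro w s t h _ _ hs _; rw [len_eq_zero.1 h, In_one] at hs; exact hs
  | succ n ih =>
    intro w s t h e a hs hb
    have g : gram (cm Γ) s t = -1 := by rw [gram, cm_nadj e a]; simp
    have l := len_mem hs
    have p := (mem_In_iff.1 hs).2
    refine ih (w * gen Γ s) t s (by omega) e.symm (fun x => a x.symm) (mem_In_iff.2 ⟨fun z => ?_, fun b => ?_⟩)
      fun b => ?_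
    · exact sr_ne_zero t (rep_injective_apply _ _ (neg_eq_zero.1 z))
    · have h1 := hb b
      have h2 := p b
      rw [rep_gen, g]
      simp only [Finsupp.coe_add, Finsupp.coe_neg, Finsupp.coe_sub, Finsupp.coe_smul, Pi.add_apply,
        Pi.neg_apply, Pi.sub_apply, Pi.smul_apply, smul_eq_mul] at h1 h2 ⊢
      linarith
    · have h1 := hb b
      rw [rep_gen, rep_gen, g, gram_self]
      simp only [Finsupp.coe_add, Finsupp.coe_sub, Finsupp.coe_smul, Pi.add_apply,
        Pi.sub_apply, Pi.smul_apply, smul_eq_mul] at h1 ⊢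
      linarith

theorem In_clique (w : W Γ) : Γ.IsClique (In w) := fun s hs t ht e => by_contra fun a =>
  clique_aux _ w s t rfl e a hs fun b => by
    have h1 := (mem_In_iff.1 hs).2 b
    have h2 := (mem_In_iff.1 ht).2 b
    simp only [Finsupp.coe_neg, Pi.neg_apply, Finsupp.coe_add, Pi.add_apply] at h1 h2 ⊢
    linarith

end geom

theorem Init_clique (w : W Γ) : Γ.IsClique (Init w) := Init_eq w ▸ In_clique _

/-- the descent set after one more letter -/
theorem In_mul_of_nmem (h : s ∉ In w) : In (w * gen Γ s) = insert s {t | t ∈ In w ∧ Γ.Adj s t} := by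
  ext t
  by_cases e : t = s
  · simp [e, mem_In_mul_self, h]
  by_cases a : Γ.Adj s t
  · simp [e, a, mem_In_mul_adj a]
  · simp only [Set.mem_insert_iff, e, Set.mem_ofPred_eq, a, and_false, or_false, iff_false]
    exact fun ht => a (In_clique _ (mem_In_mul_self.2 h) ht (Ne.symm e))

@[simp] theorem In_gen (s : S) : In (gen Γ s) = {s} := by
  have := In_mul_of_nmem (w := (1 : W Γ)) (s := s) (by simp)
  simpa using this

theorem gen_injective : Function.Injective (gen Γ) := fun s t h => by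
  have := In_gen (Γ := Γ) s
  rw [h, In_gen] at this
  exact (Set.singleton_injective this).symm

theorem gen_ne_one (s : S) : gen Γ s ≠ 1 := fun h => by simpa [h] using len_gen (Γ := Γ) s

theorem In_finite (w : W Γ) : (In w).Finite := by
  induction w using ind_red with
  | one => simp
  | mul w s h ih => rw [In_mul_of_nmem h]; exact (ih.subset fun _ h => h.1).insert s

theorem Init_finite (w : W Γ) : (Init w).Finite := Init_eq w ▸ In_finite _

/-- commuting generators are adjacent -/
theorem adj_of_comm (e : s ≠ t) (h : Commute (gen Γ s) (gen Γ t)) : Γ.Adj s t := by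
  refine In_clique (gen Γ s * gen Γ t) ?_ (mem_In_mul_self.2 (by simp [e.symm])) e
  rw [h.eq]
  exact mem_In_mul_self.2 (by simp [e])

/-! ### graph maps -/

/-- a graph homomorphism induces a group homomorphism -/
def map (φ : Γ →g Γ') : W Γ →* W Γ' :=
  lift (fun s => gen Γ' (φ s)) (fun _ => gen_mul_self _) fun _ _ h => gen_comm (φ.map_adj h)

@[simp] theorem map_gen (φ : Γ →g Γ') (s : S) : map φ (gen Γ s) = gen Γ' (φ s) := lift_gen _ _ _ s

theorem len_map_le (φ : Γ →g Γ') (w : W Γ) : len (map φ w) ≤ len w := by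
  induction w using ind_red with
  | one => simp
  | mul w s h ih =>
    rw [map_mul, map_gen, len_nmem h]
    exact (len_mul_le _ _).trans (by rw [len_gen]; omega)

/-- a graph isomorphism induces a group isomorphism -/
def aut (φ : Γ ≃g Γ') : W Γ ≃* W Γ' :=
  MonoidHom.toMulEquiv (map φ.toHom) (map φ.symm.toHom) (hom_ext fun s => by simp) (hom_ext fun s => by simp)

@[simp] theorem aut_gen (φ : Γ ≃g Γ') (s : S) : aut φ (gen Γ s) = gen Γ' (φ s) := map_gen φ.toHom s

@[simp] theorem len_aut (φ : Γ ≃g Γ') (w : W Γ) : len (aut φ w) = len w := by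
  refine (len_map_le φ.toHom w).antisymm ?_
  have := len_map_le φ.symm.toHom (aut φ w)
  rwa [show map φ.symm.toHom (aut φ w) = w from (aut φ).symm_apply_apply w] at this

theorem mem_In_aut (φ : Γ ≃g Γ') : φ s ∈ In (aut φ w) ↔ s ∈ In w := by
  simp only [In, Set.mem_ofPred_eq]
  rw [← aut_gen, ← map_mul, len_aut, len_aut]


/-- the sign character -/
def sgn : W Γ →* ℤˣ := lift (fun _ => -1) (fun _ => by simp) fun _ _ _ => Commute.refl _

@[simp] theorem sgn_gen (s : S) : sgn (gen Γ s) = -1 := lift_gen _ _ _ s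

theorem sgn_eq (w : W Γ) : sgn w = (-1) ^ len w := by
  induction w using ind_red with
  | one => simp
  | mul w s h ih => rw [map_mul, sgn_gen, len_nmem h, ih, pow_succ]

end Crest.Agent.N255.Ra
end
end

-- ▼ part N255/Ra/Cube

/-!
# Row 255 (helper38): spherical cosets `w W_τ` of a right angled Coxeter group

`pr σ` = product of the generators of a finite clique, `InF w` = `In w` as a finset, `WT τ` = the
special subgroup, `bot w τ`, `top w τ` = shortest and longest element of `w W_τ`.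
-/

set_option autoImplicit false

open scoped symmDiff

noncomputable section

namespace Crest.Agent.N255.Ra

variable {S S' : Type} {Γ : SimpleGraph S} {Γ' : SimpleGraph S'} {s t : S} {w u : W Γ} {σ σ' τ : Finset S}

variable (Γ) in
/-- the product of the generators in `σ` (meaningful for cliques) -/
def pr (σ : Finset S) : W Γ := (σ.toList.map (gen Γ)).prod

variable (Γ) in
/-- special subgroups -/
def WT (A : Set S) : Subgroup (W Γ) := Subgroup.closure (gen Γ '' A)

/-- `In w` as a finite set -/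
def InF (w : W Γ) : Finset S := (In_finite w).toFinset

@[simp] theorem mem_InF : s ∈ InF w ↔ s ∈ In w := Set.Finite.mem_toFinset _

@[simp] theorem coe_InF (w : W Γ) : (InF w : Set S) = In w := Set.Finite.coe_toFinset _

theorem InF_clique (w : W Γ) : Γ.IsClique (InF w : Set S) := coe_InF w ▸ In_clique w

@[simp] theorem pr_empty : pr Γ ∅ = 1 := by simp [pr]

@[simp] theorem pr_singleton (s : S) : pr Γ {s} = gen Γ s := by simp [pr]

theorem gen_mem_WT {A : Set S} (h : s ∈ A) : gen Γ s ∈ WT Γ A := Subgroup.subset_closure ⟨s, h, rfl⟩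

theorem WT_mono {A B : Set S} (h : A ⊆ B) : WT Γ A ≤ WT Γ B := Subgroup.closure_mono (Set.image_mono h)

theorem pr_mem_WT {A : Set S} (h : ↑σ ⊆ A) : pr Γ σ ∈ WT Γ A :=
  Subgroup.list_prod_mem _ fun x hx => by
    obtain ⟨s, hs, rfl⟩ := List.mem_map.1 hx
    exact gen_mem_WT (h (Finset.mem_toList.1 hs))

theorem comm_pr (h : ∀ t ∈ σ, s ≠ t → Γ.Adj s t) : Commute (gen Γ s) (pr Γ σ) :=
  Commute.list_prod_right _ _ fun x hx => by
    obtain ⟨t, ht, rfl⟩ := List.mem_map.1 hx
    exact gen_comm' (h t (Finset.mem_toList.1 ht))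

theorem comm_WT {A : Set S} (h : ∀ t ∈ A, s ≠ t → Γ.Adj s t) (hu : u ∈ WT Γ A) :
    Commute (gen Γ s) u := by
  induction hu using Subgroup.closure_induction with
  | mem x hx => obtain ⟨t, ht, rfl⟩ := hx; exact gen_comm' (h t ht)
  | one => exact Commute.one_right _
  | mul x y _ _ a b => exact a.mul_right b
  | inv x _ a => exact a.inv_right

theorem pr_eq_list {l : List S} (hl : l.Nodup) (h : ∀ x, x ∈ l ↔ x ∈ σ) (hσ : Γ.IsClique (σ : Set S)) :
    pr Γ σ = (l.map (gen Γ)).prod := by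
  have p : σ.toList.Perm l := (List.perm_ext_iff_of_nodup σ.nodup_toList hl).2 fun x => by
    rw [Finset.mem_toList, h]
  refine (p.map _).prod_eq' (List.pairwise_map.2 (List.pairwise_of_forall_mem_list fun a ha b hb => ?_))
  exact gen_comm' (hσ (Finset.mem_toList.1 ha) (Finset.mem_toList.1 hb))

variable [DecidableEq S]

theorem pr_insert' (h : Γ.IsClique (↑(insert s σ) : Set S)) (hs : s ∉ σ) :
    pr Γ (insert s σ) = gen Γ s * pr Γ σ :=
  pr_eq_list (l := s :: σ.toList) (List.nodup_cons.2 ⟨by simpa using hs, σ.nodup_toList⟩) (by simp) h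

theorem pr_insert (h : Γ.IsClique (↑(insert s σ) : Set S)) (hs : s ∉ σ) :
    pr Γ (insert s σ) = pr Γ σ * gen Γ s :=
  (pr_insert' h hs).trans (comm_pr fun t ht e => h (by simp) (by simp [ht]) e).eq

theorem pr_erase (h : Γ.IsClique (σ : Set S)) (hs : s ∈ σ) : pr Γ (σ.erase s) = pr Γ σ * gen Γ s := by
  conv_rhs => rw [← Finset.insert_erase hs]
  rw [pr_insert (by rwa [Finset.insert_erase hs]) (Finset.notMem_erase s σ), mul_gen_gen]

theorem pr_mul_gen (h : Γ.IsClique (↑(insert s σ) : Set S)) : pr Γ σ * gen Γ s = pr Γ (σ ∆ {s}) := by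
  by_cases hs : s ∈ σ
  · rw [← pr_erase (h.subset (by simp)) hs]
    congr 1; ext x; simp only [Finset.mem_erase, Finset.mem_symmDiff, Finset.mem_singleton]
    by_cases e : x = s <;> simp [e, hs]
  · rw [← pr_insert h hs]
    congr 1; ext x; simp only [Finset.mem_insert, Finset.mem_symmDiff, Finset.mem_singleton]
    by_cases e : x = s <;> simp [e, hs]

theorem pr_mul_pr (hτ : Γ.IsClique (τ : Set S)) (h : σ ⊆ τ) (h' : σ' ⊆ τ) :
    pr Γ σ * pr Γ σ' = pr Γ (σ ∆ σ') := by
  induction σ' using Finset.induction_on with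
  | empty => rw [pr_empty, mul_one, show σ ∆ ∅ = σ from symmDiff_bot σ]
  | insert s σ' hs ih =>
    have h1 : σ' ⊆ τ := (Finset.subset_insert _ _).trans h'
    have h2 : s ∈ τ := h' (Finset.mem_insert_self _ _)
    rw [pr_insert (hτ.subset (Finset.coe_subset.2 h')) hs, ← mul_assoc, ih h1, pr_mul_gen (hτ.subset
      (Finset.coe_subset.2 (Finset.insert_subset h2 (Finset.symmDiff_subset_union.trans
        (Finset.union_subset h h1))))), symmDiff_assoc]
    congr 2; ext x; simp only [Finset.mem_insert, Finset.mem_symmDiff, Finset.mem_singleton]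
    by_cases e : x = s <;> simp [e, hs]

omit [DecidableEq S] in
theorem pr_mul_self (h : Γ.IsClique (σ : Set S)) : pr Γ σ * pr Γ σ = 1 := by
  classical
  rw [pr_mul_pr h subset_rfl subset_rfl, symmDiff_self, Finset.bot_eq_empty, pr_empty]

omit [DecidableEq S] in
theorem pr_inv (h : Γ.IsClique (σ : Set S)) : (pr Γ σ)⁻¹ = pr Γ σ := inv_eq_of_mul_eq_one_right (pr_mul_self h)


omit [DecidableEq S] in
theorem mem_WT (hτ : Γ.IsClique (τ : Set S)) : u ∈ WT Γ τ ↔ ∃ σ ⊆ τ, u = pr Γ σ := by
  classical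
  refine ⟨fun hu => ?_, fun ⟨σ, h, e⟩ => e ▸ pr_mem_WT (Finset.coe_subset.2 h)⟩
  induction hu using Subgroup.closure_induction with
  | mem x hx => obtain ⟨t, ht, rfl⟩ := hx; exact ⟨{t}, by simpa using ht, by simp⟩
  | one => exact ⟨∅, by simp, by simp⟩
  | mul x y _ _ a b =>
    obtain ⟨σ, h, rfl⟩ := a
    obtain ⟨σ', h', rfl⟩ := b
    exact ⟨_, Finset.symmDiff_subset_union.trans (Finset.union_subset h h'), pr_mul_pr hτ h h'⟩
  | inv x _ a => obtain ⟨σ, h, rfl⟩ := a; exact ⟨σ, h, pr_inv (hτ.subset (Finset.coe_subset.2 h))⟩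

omit [DecidableEq S] in
/-- letters adjacent to all of `σ` do not see `pr σ` -/
theorem mem_In_mul_pr_adj (hσ : Γ.IsClique (σ : Set S)) (h : ∀ t ∈ σ, Γ.Adj t s) :
    s ∈ In (w * pr Γ σ) ↔ s ∈ In w := by
  classical
  induction σ using Finset.induction_on with
  | empty => simp
  | insert t σ ht ih =>
    rw [pr_insert hσ ht, ← mul_assoc, mem_In_mul_adj (h t (by simp)),
      ih (hσ.subset (by simp)) fun x hx => h x (by simp [hx])]

omit [DecidableEq S] in
/-- the descents of `w * pr σ` inside a clique `τ ⊇ σ` -/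
theorem mem_In_mul_pr (hτ : Γ.IsClique (τ : Set S)) (h : σ ⊆ τ) (hs : s ∈ τ) :
    s ∈ In (w * pr Γ σ) ↔ (s ∈ In w ↔ s ∉ σ) := by
  classical
  have hσ := hτ.subset (Finset.coe_subset.2 h)
  by_cases e : s ∈ σ
  · have := pr_erase hσ e
    rw [← mul_gen_gen (pr Γ σ) s, ← this, ← mul_assoc, mem_In_mul_self, mem_In_mul_pr_adj
      (hσ.subset (by simp)) fun t ht => hσ (Finset.mem_of_mem_erase ht) e (Finset.ne_of_mem_erase ht)]
    simp [e]
  · rw [mem_In_mul_pr_adj hσ fun t ht => hτ (h ht) hs fun x => e (x ▸ ht)]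
    simp [e]

theorem len_mul_pr (hσ : Γ.IsClique (σ : Set S)) (w : W Γ) :
    len (w * pr Γ σ) + (σ ∩ InF w).card = len w + (σ \ InF w).card := by
  induction σ using Finset.induction_on with
  | empty => simp
  | insert t σ ht ih =>
    have ih := ih (hσ.subset (by simp))
    have k := mem_In_mul_pr (w := w) hσ (Finset.subset_insert t σ) (Finset.mem_insert_self t σ)
    rw [pr_insert hσ ht, ← mul_assoc]
    by_cases e : t ∈ In w
    · have := len_mem (k.2 (by simp [e, ht]))
      rw [Finset.insert_inter_of_mem (mem_InF.2 e), Finset.insert_sdiff_of_mem _ (mem_InF.2 e),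
        Finset.card_insert_of_notMem (by simp [ht])]
      omega
    · have := len_nmem (fun x => by simpa [e, ht] using k.1 x)
      rw [Finset.insert_inter_of_notMem (by simpa using e), Finset.insert_sdiff_of_notMem _ (by simpa using e),
        Finset.card_insert_of_notMem (by simp [ht])]
      omega

omit [DecidableEq S] in
theorem len_mul_pr_up (hσ : Γ.IsClique (σ : Set S)) (h : ∀ s ∈ σ, s ∉ In w) :
    len (w * pr Γ σ) = len w + σ.card := by
  classical
  have d : Disjoint σ (InF w) := Finset.disjoint_left.2 fun s hs => by simpa using h s hs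
  have := len_mul_pr hσ w
  rwa [Finset.disjoint_iff_inter_eq_empty.1 d, Finset.sdiff_eq_self_of_disjoint d] at this

omit [DecidableEq S] in
theorem len_mul_pr_down (hσ : Γ.IsClique (σ : Set S)) (h : ∀ s ∈ σ, s ∈ In w) :
    len (w * pr Γ σ) + σ.card = len w := by
  classical
  have d : σ ⊆ InF w := fun s hs => by simpa using h s hs
  have := len_mul_pr hσ w
  rwa [Finset.inter_eq_left.2 d, Finset.sdiff_eq_empty_iff_subset.2 d] at this

omit [DecidableEq S] in
theorem len_pr (hσ : Γ.IsClique (σ : Set S)) : len (pr Γ σ) = σ.card := by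
  simpa using len_mul_pr_up (w := 1) hσ (by simp)

omit [DecidableEq S] in
/-- going up along a clique: the new descent set -/
theorem mem_In_mul_pr_up (hσ : Γ.IsClique (σ : Set S)) (h : ∀ s ∈ σ, s ∉ In w) :
    s ∈ In (w * pr Γ σ) ↔ s ∈ σ ∨ (s ∈ In w ∧ ∀ t ∈ σ, Γ.Adj t s) := by
  have k : ∀ t ∈ σ, t ∈ In (w * pr Γ σ) := fun t ht =>
    (mem_In_mul_pr hσ subset_rfl ht).2 (by simp [ht, h t ht])
  refine ⟨fun x => or_iff_not_imp_left.2 fun e => ?_, fun x => x.elim (k s) fun x =>
    (mem_In_mul_pr_adj hσ x.2).2 x.1⟩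
  have a : ∀ t ∈ σ, Γ.Adj t s := fun t ht => In_clique _ (k t ht) x fun y => e (y ▸ ht)
  exact ⟨(mem_In_mul_pr_adj hσ a).1 x, a⟩

omit [DecidableEq S] in
theorem In_pr (hσ : Γ.IsClique (σ : Set S)) : In (pr Γ σ) = σ := by
  ext s
  simpa using mem_In_mul_pr_up (w := 1) (s := s) hσ (by simp)

omit [DecidableEq S] in
theorem pr_inj (hσ : Γ.IsClique (σ : Set S)) (hσ' : Γ.IsClique (σ' : Set S)) (h : pr Γ σ = pr Γ σ') :
    σ = σ' := Finset.coe_injective (by rw [← In_pr hσ, h, In_pr hσ'])

/-! ### shortest and longest element of a coset -/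

/-- the shortest element of `w W_τ` -/
def bot (w : W Γ) (τ : Finset S) : W Γ := w * pr Γ (τ ∩ InF w)

/-- the longest element of `w W_τ` -/
def top (w : W Γ) (τ : Finset S) : W Γ := w * pr Γ (τ \ InF w)

theorem bot_mem (w : W Γ) (τ : Finset S) : w⁻¹ * bot w τ ∈ WT Γ τ := by
  rw [bot, inv_mul_cancel_left]; exact pr_mem_WT (by simp)

theorem top_mem (w : W Γ) (τ : Finset S) : w⁻¹ * top w τ ∈ WT Γ τ := by
  rw [top, inv_mul_cancel_left]; exact pr_mem_WT (by simp)

theorem nmem_In_bot (hτ : Γ.IsClique (τ : Set S)) (hs : s ∈ τ) : s ∉ In (bot w τ) := by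
  rw [bot, mem_In_mul_pr hτ Finset.inter_subset_left hs]
  by_cases e : s ∈ In w <;> simp [e, hs]

theorem mem_In_top (hτ : Γ.IsClique (τ : Set S)) (hs : s ∈ τ) : s ∈ In (top w τ) := by
  rw [top, mem_In_mul_pr hτ Finset.sdiff_subset hs]
  simp [hs]

theorem eq_bot (hτ : Γ.IsClique (τ : Set S)) (h : w⁻¹ * u ∈ WT Γ τ) (d : ∀ s ∈ τ, s ∉ In u) :
    u = bot w τ := by
  obtain ⟨σ, hσ, e⟩ := (mem_WT hτ).1 h
  obtain rfl : u = w * pr Γ σ := by rw [← e, mul_inv_cancel_left]
  rw [bot]
  congr 2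
  ext s
  refine ⟨fun x => Finset.mem_inter.2 ⟨hσ x, mem_InF.2 (by_contra fun y => ?_)⟩, fun x => by_contra fun y => ?_⟩
  · exact d s (hσ x) ((mem_In_mul_pr hτ hσ (hσ x)).2 (by simp [x, y]))
  · obtain ⟨x1, x2⟩ := Finset.mem_inter.1 x
    exact d s x1 ((mem_In_mul_pr hτ hσ x1).2 (by simp [y, mem_InF.1 x2]))

theorem eq_top (hτ : Γ.IsClique (τ : Set S)) (h : w⁻¹ * u ∈ WT Γ τ) (d : ∀ s ∈ τ, s ∈ In u) :
    u = top w τ := by
  obtain ⟨σ, hσ, e⟩ := (mem_WT hτ).1 h
  obtain rfl : u = w * pr Γ σ := by rw [← e, mul_inv_cancel_left]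
  rw [top]
  congr 2
  ext s
  refine ⟨fun x => Finset.mem_sdiff.2 ⟨hσ x, fun y => ?_⟩, fun x => by_contra fun y => ?_⟩
  · exact ((mem_In_mul_pr hτ hσ (hσ x)).1 (d s (hσ x))).1 (mem_InF.1 y) x
  · obtain ⟨x1, x2⟩ := Finset.mem_sdiff.1 x
    exact x2 (mem_InF.2 (((mem_In_mul_pr hτ hσ x1).1 (d s x1)).2 y))

theorem bot_congr (hτ : Γ.IsClique (τ : Set S)) (h : w⁻¹ * u ∈ WT Γ τ) : bot u τ = bot w τ :=
  eq_bot hτ (by simpa [mul_assoc] using mul_mem h (bot_mem u τ)) fun _ hs => nmem_In_bot hτ hs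

theorem top_congr (hτ : Γ.IsClique (τ : Set S)) (h : w⁻¹ * u ∈ WT Γ τ) : top u τ = top w τ :=
  eq_top hτ (by simpa [mul_assoc] using mul_mem h (top_mem u τ)) fun _ hs => mem_In_top hτ hs

theorem bot_eq_self (d : ∀ s ∈ τ, s ∉ In w) : bot w τ = w := by
  rw [bot, Finset.disjoint_iff_inter_eq_empty.1 (Finset.disjoint_left.2 fun s hs => by simpa using d s hs),
    pr_empty, mul_one]

theorem top_eq_self (d : ∀ s ∈ τ, s ∈ In w) : top w τ = w := by
  rw [top, Finset.sdiff_eq_empty_iff_subset.2 fun s hs => mem_InF.2 (d s hs), pr_empty, mul_one]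



theorem len_bot (hτ : Γ.IsClique (τ : Set S)) (w : W Γ) : len (bot w τ) + (τ ∩ InF w).card = len w :=
  len_mul_pr_down (hτ.subset (by simp)) fun s hs => mem_InF.1 (Finset.mem_inter.1 hs).2

theorem len_top (hτ : Γ.IsClique (τ : Set S)) (w : W Γ) : len (top w τ) = len w + (τ \ InF w).card :=
  len_mul_pr_up (hτ.subset (by simp)) fun s hs => by
    simpa using (Finset.mem_sdiff.1 hs).2



/-! ### graph maps -/




omit [DecidableEq S] in
theorem map_mem_WT (φ : Γ →g Γ') {A : Set S} (h : u ∈ WT Γ A) : map φ u ∈ WT Γ' (φ '' A) := by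
  induction h using Subgroup.closure_induction with
  | mem x hx => obtain ⟨t, ht, rfl⟩ := hx; rw [map_gen]; exact gen_mem_WT ⟨t, ht, rfl⟩
  | one => rw [map_one]; exact one_mem _
  | mul x y _ _ a b => rw [map_mul]; exact mul_mem a b
  | inv x _ a => rw [map_inv]; exact inv_mem a

omit [DecidableEq S] in
/-- a group acting on the graph acts on the Coxeter group -/
def autHom {F : Type} [Group F] (ρ : F →* (Γ ≃g Γ)) : F →* MulAut (W Γ) :=
  MonoidHom.mk' (fun g => aut (ρ g)) fun g h => MulEquiv.toMonoidHom_injective (hom_ext fun s => by simp)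

omit [DecidableEq S] in
theorem autHom_apply {F : Type} [Group F] (ρ : F →* (Γ ≃g Γ)) (g : F) : autHom ρ g = aut (ρ g) := rfl

end Crest.Agent.N255.Ra
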